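import Vale.Agent.P295.Quadratic

/-!
Quadratic stable coordinates are coordinates.
-/

open MvPolynomial Vale.Agent.P295

namespace Vale.Agent.Results.P295.QuadraticStableCoordinates

theorem result (n : ℕ) (f : MvPolynomial (Fin n) ℂ) :
    (IsStableCoord f → f.totalDegree ≤ 2 → IsCoord f) ∧
    ((∀ p, ∃ i, eval p (pderiv i f) ≠ 0) → f.totalDegree ≤ 2 → IsCoord f) ∧
    ∀ (v : Fin n → ℂ) (c : ℂ), c ≠ 0 → ∑ i, C (v i) * pderiv i f = C c → IsCoord f :=
  ⟨fun h hd => isCoord_of_quadratic hd (noCrit_of_stable h),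
    fun h hd => isCoord_of_quadratic hd h, fun v c hc h => isCoord_of_directional v c hc h⟩

end Vale.Agent.Results.P295.QuadraticStableCoordinates
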