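import Vale.Agent.P295.Fib.Cylinder

/-!
The stable coordinate conjecture is false.
-/

open MvPolynomial Vale.Agent.P295

namespace Vale.Agent.Results.P295.StableCoordinateFails

theorem result :
    ∃ (n : ℕ) (f : MvPolynomial (Fin n) ℂ), IsStableCoord f ∧ ¬ IsCoord f :=
  Fib.exists_stable_not_coord

end Vale.Agent.Results.P295.StableCoordinateFails
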